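import Crest.Agent.X212.Dl42.Fam
import Crest.Agent.X212.Pb50.Act

/-!
# Row 212, SW-DL (helper42): the equations on the cylinder, split into time and space parts
-/

set_option autoImplicit false
set_option linter.unusedSectionVars false
noncomputable section
open scoped Manifold ContDiff Topology InnerProductSpace
open Finset Filter MeasureTheory

namespace Crest.Agent.X212.Dl42
open An Sob92 Wz78 Cyf70 Dl23 Op78
open Sw (Bg F2 En3)
open Sw.En3 (sl fz gr)
open Pb50 (LA)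

variable {κ lam ν : Type} [Fintype κ] [Fintype lam] [Fintype ν] [DecidableEq ν]

section bg
variable {E : Type} [NormedAddCommGroup E] [NormedSpace ℝ E] [FiniteDimensional ℝ E]
  [MeasurableSpace E] [BorelSpace E]
  {HM : Type} [TopologicalSpace HM] {I : ModelWithCorners ℝ E HM}
  {M : Type} [TopologicalSpace M] [ChartedSpace HM M] [IsManifold I ∞ M] [MeasurableSpace M]
  {nc : ℕ} {b : Bg I M κ lam ν nc} {c c' : Sw.Cfg M κ ν} {x : M} {v : Eu ν}

theorem p2_apply (η : F2 κ) (s : Option κ × Option κ) : b.p2 x η s = ∑ t, b.B.sd x s t * η t := by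
  simp [Bg.p2]

theorem e_congr (ha : ∀ i, c.a i =ᶠ[𝓝 x] c'.a i) (hΦ : c.Φ =ᶠ[𝓝 x] c'.Φ) :
    b.eD c x = b.eD c' x ∧ b.eC c x = b.eC c' x := by
  have h : ∀ i, b.W c i =ᶠ[𝓝 x] b.W c' i := fun i => (ha i).mono fun y h => by simp only [Bg.W, h]
  simp only [Bg.eD, Bg.eC, Bg.fc, curv, dir, nab, fun i j => dv_congr (e := b.F.e j) (h i),
    fun i => (h i).self_of_nhds, fun j => dv_congr (e := b.F.e j) hΦ, hΦ.self_of_nhds, and_self]

variable (hb : b.OK)
include hb

theorem p_of (hv : b.pp x v = v) : b.m.p x v = v := by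
  rw [← hv, ← mul_apply_eq_comp, Pb50.p_pp hb]

theorem p2_qd (hv : b.pp x v = v) : b.p2 x (b.qd x v v) = b.qd x v v := by
  ext s
  obtain ⟨U, h⟩ := b_on hb.B x
  have C := hb.m.cl x trivial
  have h1 := h.star C s.1 s.2
  have h4 : ∀ i j, ∑ k, ∑ l, (b.B.P i k x * b.B.P j l x) • (b.m.ρ k x * b.m.ρ l x) =
      b.m.ρ i x * b.m.ρ j x := fun i j => by rw [← rr_mul, C.proj, C.proj]
  have h5 := h4 s.2 s.1
  simp only [mul_comm (b.B.P s.2 _ x)] at h5
  have h6 : b.m.ρ s.1 x * b.m.ρ s.2 x + b.B.P s.1 s.2 x • b.m.p x =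
      (1 / 2 : ℝ) • (b.m.ρ s.1 x * b.m.ρ s.2 x - b.m.ρ s.2 x * b.m.ρ s.1 x) := by
    rw [C.swap s.1 s.2]; module
  have h7 : ∑ t, b.B.sd x s t • (b.m.ρ t.1 x * b.m.ρ t.2 x) =
      (b.m.ρ s.1 x * b.m.ρ s.2 x + b.B.P s.1 s.2 x • b.m.p x) * b.pp x := by
    simp only [Base.sd, Base.a2, Base.st, Fintype.sum_prod_type, div_eq_inv_mul, mul_smul (2⁻¹ : ℝ),
      ← smul_sum, add_smul, sub_smul, sum_add_distrib, sum_sub_distrib, h4, h5, h1, h6, Bg.pp,
      smul_mul_assoc, mul_smul_comm, mul_sub, sub_mul, mul_assoc, C.pr, mul_one,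
      show b.vol x = omA (fun i j k l => b.B.o i j k l x) fun i => b.m.ρ i x from rfl]
    module
  have e := congrArg (fun T : En ν => ⟪b.m.J (T v), v⟫_ℝ) h7
  simp only [_root_.sum_apply, smul_apply, mul_apply_eq_comp, add_apply, hv, p_of hb hv, map_sum,
    map_smul, map_add, sum_inner, inner_add_left, real_inner_smul_left, Skew.self hb.m.Jsk v] at e
  simp only [p2_apply, Bg.qd, mul_left_comm _ (1 / 8 : ℝ), ← mul_sum, e]
  ring

theorem jp_skw (x : M) : Skw (b.jp x) := fun v w => by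
  rw [Bg.jp, mul_apply_eq_comp, hb.m.Jsk, hb.m.psym x trivial, hb.m.Jp x trivial, mul_apply_eq_comp]

theorem fc_eq (h : ∀ i, SA I (c.a i) x) (i j : Option κ) : b.fc c x (i, j) =
    1 / 8 * ⟪hsL (b.jp x), hsL (curv I b.F.e b.F.c b.A i j x)⟫_ℝ + d1 I b.F.e b.F.c c.a i j x := by
  have h8 : ⟪hsL (b.jp x), hsL (b.jp x)⟫_ℝ = 8 := by
    rw [inner_hsL_skw (jp_skw hb x), Bg.jp, mul_assoc, ← mul_assoc (b.m.p x), ← Pb50.Jp hb,
      mul_assoc, hb.m.pidem x trivial, ← mul_assoc, hb.m.Jsq, neg_one_mul, map_neg, neg_neg, trE_eq,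
      hb.m.prk x trivial]
  simp only [Bg.fc, Pb50.curv_W hb h, map_add, map_smul, inner_add_right, real_inner_smul_right, h8,
    d1, smul_eq_mul, Pre.D_def]
  ring

end bg

variable (e : En3 κ lam ν)

/-- the volume form of the cross-section -/
def G (k i j : κ) (y : e.Y.M) : ℝ := e.D.o none (some k) (some i) (some j) y

/-- Clifford multiplication on the cross-section -/
def τ (k : κ) (y : e.Y.M) : En ν := e.m.ρ none y * e.m.ρ (some k) y

/-- the mass term -/
def hZ (y : e.Y.M) : En ν := e.m.ρ none y * (e.m.ρ none y * e.h y)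

/-- the curvature of the reference connection -/
def f0 (i j : κ) (y : e.Y.M) : ℝ :=
  1 / 8 * ⟪hsL (e.m.J * e.m.p y), hsL (curv e.Y.I e.D.F.e e.D.F.c e.A i j y)⟫_ℝ

/-- twice the dual of a two-form -/
def st (f : κ → κ → e.Y.M → ℝ) (k : κ) (y : e.Y.M) : ℝ := ∑ i, ∑ j, G e k i j y * f i j y

/-- the constant part of the gradient -/
def g0 (k : κ) (y : e.Y.M) : ℝ := st e (f0 e) k y / 4 - e.om y (none, some k)

/-- twice `* d` -/
def sd (a : κ → e.Y.M → ℝ) : κ → e.Y.M → ℝ := st e (d1 e.Y.I e.D.F.e e.D.F.c a)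

/-- the bilinear moment map -/
def qq (k : κ) (φ ψ : e.Y.M → Eu ν) (y : e.Y.M) : ℝ := ⟪e.m.J (τ e k y (φ y)), ψ y⟫_ℝ

/-- the Dirac operator of the reference connection -/
def D0 (φ : e.Y.M → Eu ν) (y : e.Y.M) : Eu ν :=
  -(dop e.Y.I e.D.F.e (τ e) e.A φ y + hZ e y (φ y))

variable {e}

/-- the gradient without the holonomy term -/
def Ga (v : e.YC) (k : κ) (y : e.Y.M) : ℝ :=
  2 * g0 e k y + sd e v.a k y / 2 - e.w / 4 * qq e k v.Φ v.Φ y

/-- the gradient without the radial mass -/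
def GP (v : e.YC) (y : e.Y.M) : Eu ν := D0 e v.Φ y - ∑ k, v.a k y • e.m.J (τ e k y (v.Φ y))

/-- the derivative in time -/
def dt (c : e.ZC) : e.ZC := ⟨fun i => e.D.Z.D none (c.a i), e.D.Z.D none c.Φ⟩

variable (he : e.OK) {c : e.ZC} {y : e.Y.M} {u w : Eu ν}
include he

theorem p3 (y : e.Y.M) : P3 e.Y.I e.D.F.e e.D.F.P e.D.F.Gam (G e) y := by
  classical
  have B := he.cyl.B
  have v := vol_of B
  refine ⟨fun a b c => sm_slice_fst (B.so _ _ _ _) 0 y, fun a b c => B.o23 _ _ _ _ (y, 0),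
    fun a b c => B.o34 _ _ _ _ (y, 0), fun a b c => ?_, fun a b c d => ?_⟩
  · simpa [Fintype.sum_option, En3.cyl, Nd18.YD.B, cP, G] using
      oP2 B none (some a) (some b) (some c) (y, 0)
  · have L := lc_gam e.D.Z
    have F := frm e.D.Z
    have h := Idg99.o_par L F B.so v (some a) (y, 0) none (some b) (some c) (some d)
    have p2 := fun a b c d => oP2 B a b c d (y, 0)
    have p3 : ∀ a b c d, ∑ k, e.cyl.B.P c k (y, 0) • e.cyl.B.o a b k d (y, 0) =
        e.cyl.B.o a b c d (y, 0) := fun a b c d => by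
      simpa only [B.o23 a b, smul_eq_mul, mul_neg, sum_neg_distrib, neg_inj] using p2 a c b d
    have p4 : ∀ a b c d, ∑ k, e.cyl.B.P d k (y, 0) • e.cyl.B.o a b c k (y, 0) =
        e.cyl.B.o a b c d (y, 0) := fun a b c d => by
      simpa only [B.o34 a b c, smul_neg, sum_neg_distrib, neg_inj] using p3 a b d c
    have h1 := Om_sum L F (some a) none fun i => B.oP i (some b) (some c) (some d) (y, 0)
    have h2 := Om_sum L F (some a) (some b) fun i => p2 none i (some c) (some d)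
    have h3 := Om_sum L F (some a) (some c) fun i => p3 none (some b) i (some d)
    have h4 := Om_sum L F (some a) (some d) fun i => p4 none (some b) (some c) i
    simp only [smul_eq_mul] at h1 h2 h3 h4
    simp only [sum_add_distrib, h1, h2, h3, h4] at h
    simp only [Fintype.sum_option, gam_cyl, zero_mul, sum_const_zero, zero_add] at h
    erw [dv_some (SA.md (B.so _ _ _ _ _))] at h
    simp only [sum_add_distrib]
    exact (by intros; linarith : ∀ {A B C D : ℝ}, A + (-0 + -B + -C + -D) = 0 → A = B + C + D) h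

theorem J_skw : Skw e.m.J := he.cyl.m.Jsk

theorem Jρ (i : Option κ) (u : Eu ν) : e.m.J (e.m.ρ i y u) = e.m.ρ i y (e.m.J u) :=
  congrArg (fun T : En ν => T u) (Pb50.Jρ he.cyl i (y, 0))

theorem pJ (h : e.m.p y u = u) : e.m.p y (e.m.J u) = e.m.J u :=
  (congrArg (fun T : En ν => T u) (Pb50.Jp he.cyl (y, 0))).symm.trans (congrArg e.m.J h)

theorem ρρ (u : Eu ν) : e.m.ρ none y (e.m.ρ none y u) = -e.m.p y u := by
  have := congrArg (fun T : En ν => T u) ((he.cyl.m.cl (y, 0) trivial).rel none none)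
  change e.m.ρ none y (e.m.ρ none y u) + e.m.ρ none y (e.m.ρ none y u) =
    (-2 * 1 : ℝ) • e.m.p y u at this
  rw [← two_smul ℝ, mul_one, neg_smul, ← smul_neg] at this
  exact smul_right_injective _ two_ne_zero this

theorem τ_skw (k : κ) (y : e.Y.M) : Skew (τ e k y) := fun u w => by
  have := congrArg (fun T : En ν => T w) ((he.cyl.m.cl (y, 0) trivial).rel none (some k))
  change e.m.ρ none y (e.m.ρ (some k) y w) + e.m.ρ (some k) y (e.m.ρ none y w) =
    (-2 * 0 : ℝ) • e.m.p y w at this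
  rw [mul_zero, zero_smul, add_eq_zero_iff_eq_neg] at this
  have s : ∀ i, Skw (e.m.ρ i y) := fun i => he.cyl.m.ρsk i (y, 0) trivial
  rw [τ, mul_apply_eq_comp, mul_apply_eq_comp, s, s, this, inner_neg_right]

theorem Jτ (k : κ) (u : Eu ν) : e.m.J (τ e k y u) = τ e k y (e.m.J u) := by
  rw [τ, mul_apply_eq_comp, mul_apply_eq_comp, Jρ he, Jρ he]

theorem JZ (u : Eu ν) : e.m.J (hZ e y u) = hZ e y (e.m.J u) :=
  (Jρ he none _).trans (congrArg (fun T : En ν => e.m.ρ none y (T u)) (he.cyl.msJ (y, 0)))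

theorem Z_sym (hu : e.m.p y u = u) (hw : e.m.p y w = w) : ⟪hZ e y u, w⟫_ℝ = ⟪u, hZ e y w⟫_ℝ := by
  have s : Sym (e.m.p y) := he.cyl.m.psym (y, 0) trivial
  simp only [hZ, mul_apply_eq_comp, ρρ he, inner_neg_left, inner_neg_right]
  rw [s, hw, ← s, hu, he.hs]

theorem qq_comm (k : κ) (φ ψ : e.Y.M → Eu ν) (y : e.Y.M) : qq e k φ ψ y = qq e k ψ φ y := by
  rw [qq, qq, J_skw he, τ_skw he, neg_neg, ← Jτ he, real_inner_comm]

theorem sm_Z : Sm e.Y.I (hZ e) := fun y =>
  SA.mul (sm_slice_fst (he.cyl.cc.sρ none) 0 y) (sm_slice_fst he.cyl.cms.choose_spec.1 0 y)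

theorem sy : Sy e.Y.I e.D.F.e e.D.F.P e.D.F.Gam e.A e.A (τ e) :=
  have S := sy_slc (F := e.D.F) (C := e.cyl.A) (C' := e.cyl.A) (σ := e.cyl.m.ρ)
    ⟨he.cyl.cc.sρ, fun a x => (he.cyl.cc.cl x).proj a, he.cyl.cc.comp⟩
  S.1.lcomp (sm_slice_fst (he.cyl.cc.sρ none) 0) S.2

theorem conA : Con e.Y.I e.D.F.P e.A :=
  ⟨fun a => sm_slice_fst (he.cyl.cc.sm (some a)) 0, fun a y => by
    simpa [Fintype.sum_option, En3.cyl, Nd18.YD.B, cP, Nd18.ca] using
      he.cyl.cc.proj (some a) (y, 0)⟩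

theorem curv_cyl (i j : Option κ) (x : e.Y.M × ℝ) :
    curv (IC e.Y.I) e.D.Z.e e.D.Z.c e.cyl.A i j x = match i, j with
      | some i, some j => curv e.Y.I e.D.F.e e.D.F.c e.A i j x.1
      | _, _ => 0 := by
  have h1 : ∀ i j, dv (IC e.Y.I) (ce e.D.F.e (some i)) (fun x => e.A j x.1) x =
      dv e.Y.I (e.D.F.e i) (e.A j) x.1 := fun i j =>
    congrFun (D_some_fst e.D.F.toPre ((conA he).sm j) i) x
  have h2 : ∀ j, dv (IC e.Y.I) (ce e.D.F.e none) (fun x => e.A j x.1) x = 0 := fun j =>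
    congrFun (D_none_fst e.D.F.toPre ((conA he).sm j)) x
  cases i <;> cases j <;>
    simp [curv, En3.cyl, Nd18.ca, cyl, cylP, cc, Fintype.sum_option, h1, h2]

theorem adm_dt (hc : e.cyl.Adm c) : e.cyl.Adm (dt c) := by
  refine ⟨fun i => e.D.Z.sm_D (hc.sa i) none, e.D.Z.sm_D hc.sΦ none, fun i x => ?_, fun x =>
    (fam_cyl e.D.F.toPre hc.sΦ).fix (T := e.cyl.pp x) (fun s => hc.pΦ (x.1, s)) x.2⟩
  have h := fun i => hasDerivAt_slice e.D.F.toPre (hc.sa i) x.1 x.2
  refine (HasDerivAt.fun_sum fun j _ => (h j).const_mul (e.cyl.B.P i j x)).unique ?_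
  have : ∀ s j, e.cyl.B.P i j x = e.cyl.B.P i j (x.1, s) := fun s j => by
    cases i <;> cases j <;> rfl
  rw [show (fun s => ∑ j, e.cyl.B.P i j x * c.a j (x.1, s)) = fun s => c.a i (x.1, s) from
    _root_.funext fun s => by simp only [this s, hc.pa]]
  exact h i

/-- the curvature equation -/
theorem eC_split (hc : e.cyl.Adm c) (y : e.Y.M) (s : ℝ) (k : κ) :
    2 * e.cyl.eC c (y, s) (none, some k) =
      (dt c).a (some k) (y, s) - e.D.F.D k (fun z => c.a none (z, s)) y + Ga (sl c s) k y := by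
  have B := he.cyl.B
  have f := fc_eq he.cyl fun i => hc.sa i (y, s)
  have d := fun i j => D_some e.D.F.toPre (hc.sa j) i (y, s)
  set n : κ → ℝ := fun k => (dt c).a (some k) (y, s) - e.D.F.D k (fun z => c.a none (z, s)) y
  have f1 : ∀ i j, e.cyl.fc c (y, s) (some i, some j) =
      f0 e i j y + d1 e.Y.I e.D.F.e e.D.F.c (sl c s).a i j y := fun i j => by
    rw [f, d1, Fintype.sum_option]
    exact congrArg₂ _ (congrArg (fun T => 1 / 8 * ⟪_, hsL T⟫_ℝ) (curv_cyl he _ _ _))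
      (congrArg₂ _ (congrArg₂ _ (d _ _) (d _ _)) (zero_smul ℝ (c.a none (y, s)) ▸ zero_add _))
  have z : ∀ i j, (i = none ∨ j = none) → e.cyl.fc c (y, s) (i, j) =
      e.D.Z.D i (c.a j) (y, s) - e.D.Z.D j (c.a i) (y, s) := fun i j h => by
    have h1 : curv (IC e.Y.I) e.D.Z.e e.D.Z.c e.cyl.A i j (y, s) = 0 := by
      rw [curv_cyl he]; rcases h with rfl | rfl; exacts [rfl, by cases i <;> rfl]
    have h2 : ∀ l, e.D.Z.c i j l (y, s) = 0 := fun l => by
      rcases h with rfl | rfl; exacts [rfl, by cases i <;> rfl]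
    rw [f]
    change 1 / 8 * ⟪_, hsL (curv (IC e.Y.I) e.D.Z.e e.D.Z.c e.cyl.A i j (y, s))⟫_ℝ +
      (_ - ∑ l, e.D.Z.c i j l (y, s) • _) = _
    simp only [h1, h2, map_zero, inner_zero_right, mul_zero, zero_add, zero_smul, sum_const_zero,
      sub_zero]
    rfl
  have f2 : ∀ k, e.cyl.fc c (y, s) (none, some k) = n k := fun k =>
    (z _ _ (.inl rfl)).trans (congrArg _ (d _ _))
  have f3 : ∀ k, e.cyl.fc c (y, s) (some k, none) = -n k := fun k =>
    (z _ _ (.inr rfl)).trans ((congrArg (· - _) (d _ _)).trans (neg_sub _ _).symm)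
  have hP : ∑ j, e.D.F.P k j y * n j = n k := by
    have h1 := (adm_dt he hc).pa (some k) (y, s)
    rw [Fintype.sum_option] at h1
    have h2 := (frm e.D.F).projD k (fun z => c.a none (z, s)) y
    simp only [n, mul_sub, sum_sub_distrib]
    exact congrArg₂ _ ((zero_add _).symm.trans ((congrArg (· + _) (zero_mul _).symm).trans h1)) h2
  have o1 : ∀ a b, e.D.o none a none b y = 0 := fun a b => by
    have := B.o12 none none a b (y, s)
    have := B.o23 none a none b (y, s)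
    change e.cyl.B.o none a none b (y, s) = 0
    linarith
  have o2 : ∀ a b, e.D.o none a b none y = 0 := fun a b =>
    (B.o34 none a b none (y, s)).trans (neg_eq_zero.2 (o1 a b))
  have s1 : ∀ i j, e.cyl.B.sd (y, s) (none, some k) (i, j) = match i, j with
      | none, none => 0
      | none, some j => 1 / 4 * e.D.F.P k j y
      | some i, none => -(1 / 4 * e.D.F.P k i y)
      | some i, some j => 1 / 4 * G e k i j y := fun i j => by
    cases i <;> cases j <;>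
      simp only [Base.sd, Base.a2, Base.st, En3.cyl, Nd18.YD.B, cP, o1, o2, G] <;> ring
  rw [Bg.eC, map_sub, map_smul, p2_qd he.cyl (hc.pΦ _)]
  simp only [PiLp.sub_apply, PiLp.smul_apply, p2_apply, Fintype.sum_prod_type, Fintype.sum_option,
    f1, f2, f3, s1, neg_mul_neg, mul_assoc, mul_add, sum_add_distrib, ← mul_sum, hP]
  change 2 * (_ - e.w * (1 / 8 * qq e k (sl c s).Φ (sl c s).Φ y) - e.om y _) = n k + _
  simp only [Ga, g0, sd, st]
  ring

/-- the Dirac equation -/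
theorem eD_split (hc : e.cyl.Adm c) (y : e.Y.M) (s : ℝ) : -e.m.ρ none y (e.cyl.eD c (y, s)) =
    (dt c).Φ (y, s) + c.a none (y, s) • e.m.J (c.Φ (y, s)) + GP (sl c s) y := by
  have h0 : e.m.p y (c.Φ (y, s)) = c.Φ (y, s) := p_of he.cyl (hc.pΦ (y, s))
  have h1 : e.m.p y ((dt c).Φ (y, s)) = (dt c).Φ (y, s) := p_of he.cyl ((adm_dt he hc).pΦ (y, s))
  have h2 : ∀ i, nab (IC e.Y.I) e.cyl.F.e (e.cyl.W c) i c.Φ (y, s) = e.D.Z.D i c.Φ (y, s) +
      (e.cyl.A i (y, s) (c.Φ (y, s)) + c.a i (y, s) • e.m.J (c.Φ (y, s))) := fun i =>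
    congrArg (fun t => e.D.Z.D i c.Φ (y, s) +
      (e.cyl.A i (y, s) (c.Φ (y, s)) + c.a i (y, s) • e.m.J t)) h0
  have h3 : ∀ k, e.D.Z.D (some k) c.Φ (y, s) = _ := fun k => D_some e.D.F.toPre hc.sΦ k (y, s)
  simp only [Bg.eD, dir, h2, Fintype.sum_option, h3]
  change -e.m.ρ none y (e.m.ρ none y ((dt c).Φ (y, s) + (0 + _)) + ∑ k, e.m.ρ (some k) y
    (_ + (e.A k y _ + _)) + (e.m.ρ none y * e.h y) _) = _
  simp only [map_add, map_sum, map_smul, ρρ he, h1, pJ he h0, zero_add, GP, D0, dop, nab, τ, hZ,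
    mul_apply_eq_comp, sl, Jρ he, sum_add_distrib, Pre.D_def, smul_neg]
  abel

end Crest.Agent.X212.Dl42
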