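import Crest.Agent.X212.Dl42.Pt

/-!
# Row 212, SW-DL (helper42): the derivative of the functional
-/

set_option autoImplicit false
set_option linter.unusedSectionVars false
noncomputable section
open scoped Manifold ContDiff Topology InnerProductSpace
open Finset Filter MeasureTheory

namespace Crest.Agent.X212.Dl42
open An Sob92 Wz78 Cyf70 Dl23 Op78
open Sw (Bg F2 En3)
open Sw.En3 (sl fz gr ip nm hol gn L)

variable {κ lam ν : Type} [Fintype κ] [Fintype lam] [Fintype ν] [DecidableEq ν]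
  {e : En3 κ lam ν} {c : e.ZC}

/-- admissible configurations on the cross-section -/
structure Ay (v : e.YC) : Prop where
  sa : ∀ k, Sm e.Y.I (v.a k)
  sΦ : Sm e.Y.I v.Φ
  pa : ∀ k y, ∑ j, e.D.F.P k j y • v.a j y = v.a k y
  pΦ : ∀ y, e.cyl.pp (y, 0) (v.Φ y) = v.Φ y

theorem Ay.adm {v : e.YC} (h : Ay v) : e.cyl.Adm (fz v) where
  sa i := by
    cases i
    exacts [contMDiff_const, sm_fst (h.sa _)]
  sΦ := sm_fst h.sΦ
  pa i x := by
    rw [Fintype.sum_option]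
    cases i with
    | none => exact (congrArg₂ _ (mul_zero _) (sum_eq_zero fun k _ => zero_mul _)).trans (add_zero _)
    | some k => exact (congrArg (· + _) (zero_mul _)).trans ((zero_add _).trans (h.pa k x.1))
  pΦ x := h.pΦ x.1

theorem ay_sl (hc : e.cyl.Adm c) (s : ℝ) : Ay (sl c s) :=
  ⟨fun k => sm_slice_fst (hc.sa (some k)) s, sm_slice_fst hc.sΦ s, fun k y => by
    have := hc.pa (some k) (y, s)
    rw [Fintype.sum_option] at this
    exact (zero_add _).symm.trans ((congrArg (· + _) (zero_mul _).symm).trans this),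
    fun y => hc.pΦ (y, s)⟩

theorem ay_of {v : e.YC} (h : e.cyl.Adm (fz v)) : Ay v := ay_sl h 0

/-- a smooth family of admissible configurations with its derivative -/
structure FY (v u : ℝ → e.YC) : Prop where
  a : ∀ k, Fam e.Y.I (fun s => (v s).a k) fun s => (u s).a k
  Φ : Fam e.Y.I (fun s => (v s).Φ) fun s => (u s).Φ
  ay : ∀ s, Ay (v s)

theorem FY.ay' {v u : ℝ → e.YC} (h : FY v u) (s : ℝ) : Ay (u s) :=
  ⟨fun k => ((h.a k).sm' e.D.F.toPre).sl s, (h.Φ.sm' e.D.F.toPre).sl s, fun k y =>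
    ((Fam.sum fun j => (h.a j).smul (e.D.F.P_sm k j)).dr s y).unique (by
      simpa only [fun s => (h.ay s).pa] using (h.a k).dr s y),
    fun y => h.Φ.fix (fun s => (h.ay s).pΦ y) s⟩

theorem fy_sl (hc : e.cyl.Adm c) : FY (sl c) (sl (dt c)) :=
  ⟨fun k => fam_cyl e.D.F.toPre (hc.sa (some k)), fam_cyl e.D.F.toPre hc.sΦ, ay_sl hc⟩

theorem fy_sc {v : e.YC} (h : Ay v) : FY (fun r => v.smul r) fun _ => v :=
  ⟨fun k => fam_sc (h.sa k), fam_sc h.sΦ, fun r => ⟨fun k => (fam_sc (h.sa k)).sm.sl r,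
    (fam_sc h.sΦ).sm.sl r, fun k y => by
      simp only [En3.YC.smul, ← h.pa k y, smul_eq_mul, mul_sum, mul_left_comm],
    fun y => (map_smul _ _ _).trans (congrArg _ (h.pΦ y))⟩⟩

/-- the density of the metric -/
def ipd (u v : e.YC) (y : e.Y.M) : ℝ := 2 * ∑ k, u.a k y * v.a k y + e.w * ⟪u.Φ y, v.Φ y⟫_ℝ

/-- the density of the functional -/
def dens (v : e.YC) (y : e.Y.M) : ℝ :=
  4 * ∑ k, g0 e k y * v.a k y + 1 / 2 * ∑ k, sd e v.a k y * v.a k y
    + e.w / 2 * ⟪D0 e v.Φ y, v.Φ y⟫_ℝ - e.w / 2 * ∑ k, v.a k y * qq e k v.Φ v.Φ y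

variable (e) in
/-- the primitive of the radial mass -/
def Bi (x : ℝ) : ℝ := ∫ r in (0 : ℝ)..x, e.b r

/-- the functional up to a constant -/
def Lt (v : e.YC) : ℝ := ∫ y, dens v y ∂e.D.F.μ + e.f (hol v) - e.w / 2 * Bi e (nm v)

/-- an infinitesimal gauge transformation -/
def gau (v : e.YC) (χ : e.Y.M → ℝ) : e.YC :=
  ⟨fun k => e.D.F.D k χ, fun y => -(χ y • e.m.J (v.Φ y))⟩

variable (he : e.OK)
include he

theorem gr_a {v : e.YC} (h : Ay v) (k : κ) (y : e.Y.M) :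
    (gr v).a k y = Ga v k y + 2 * deriv e.f (hol v) * e.ζ y (none, some k) := by
  have h1 := eC_split he h.adm y 0 k
  rw [show (dt (fz v)).a (some k) = 0 from D_none_fst _ (h.sa k),
    show e.D.F.D k (fun z => (fz v).a none (z, 0)) = 0 from dv_const 0] at h1
  simp only [gr, PiLp.add_apply, PiLp.smul_apply, mul_add, h1, smul_eq_mul, Pi.zero_apply, sub_zero,
    zero_add, mul_assoc]
  rfl

theorem gr_Φ {v : e.YC} (h : Ay v) (y : e.Y.M) : (gr v).Φ y = GP v y - e.b (nm v) • v.Φ y := by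
  have h1 := eD_split he h.adm y 0
  rw [show (dt (fz v)).Φ = 0 from D_none_fst _ h.sΦ, show (fz v).a none (y, 0) = 0 from rfl,
    zero_smul, add_zero, Pi.zero_apply, zero_add] at h1
  exact congrArg (· - _) h1

theorem sm_G (k i j : κ) : Sm e.Y.I (G e k i j) := fun y => (p3 he y).sm k i j

theorem sm_f0 (i j : κ) : Sm e.Y.I (f0 e i j) := fun y => SA.mul contMDiffAt_const
  (SA.inner (SA.clm hsL (sm_slice_fst (Pb50.sa_jp he.cyl) 0 y))
    (SA.clm hsL (sm_curv (conA he).sm i j y)))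

theorem sm_st0 (k : κ) : Sm e.Y.I (st e (f0 e) k) := fun y =>
  SA.sum _ fun i _ => SA.sum _ fun j _ => SA.mul (sm_G he k i j y) (sm_f0 he i j y)

theorem sm_om (s : Option κ × Option κ) : Sm e.Y.I fun y => e.om y s := fun y =>
  SA.comp (sm_slice_fst he.cyl.com.choose_spec.1 0 y) s

theorem sm_ζ (s : Option κ × Option κ) : Sm e.Y.I fun y => e.ζ y s := fun y => SA.comp (he.sζ y) s

theorem sm_g0 (k : κ) : Sm e.Y.I (g0 e k) := ((sm_st0 he k).div_const _).sub (sm_om he _)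

section fam
variable {a a' : ℝ → κ → e.Y.M → ℝ} {φ φ' ψ ψ' : ℝ → e.Y.M → Eu ν}

theorem fam_sd (h : ∀ k, Fam e.Y.I (fun s => a s k) fun s => a' s k) (k : κ) :
    Fam e.Y.I (fun s => sd e (a s) k) fun s => sd e (a' s) k :=
  Fam.sum fun i => Fam.sum fun j => ((((h j).D e.D.F.toPre i).sub ((h i).D e.D.F.toPre j)).sub
    (Fam.sum fun l => (h l).smul (e.D.F.c_sm i j l))).smul (sm_G he k i j)

theorem fam_D0 (h : Fam e.Y.I φ φ') : Fam e.Y.I (fun s => D0 e (φ s)) fun s => D0 e (φ' s) :=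
  ((Fam.sum fun k => ((h.D e.D.F.toPre k).add (h.app ((conA he).sm k))).app ((sy he).sm k)).add
    (h.app (sm_Z he))).neg

theorem fam_Jτ (h : Fam e.Y.I φ φ') (k : κ) : Fam e.Y.I (fun s y => e.m.J (τ e k y (φ s y)))
    fun s y => e.m.J (τ e k y (φ' s y)) :=
  (h.app ((sy he).sm k)).app (T := fun _ => e.m.J) contMDiff_const

theorem fam_qq (h : Fam e.Y.I φ φ') (h' : Fam e.Y.I ψ ψ') (k : κ) :
    Fam e.Y.I (fun s => qq e k (φ s) (ψ s))
      fun s y => qq e k (φ' s) (ψ s) y + qq e k (φ s) (ψ' s) y := (fam_Jτ he h k).inner h'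

end fam

/-- `* d` is symmetric -/
theorem nul_sd {a u : κ → e.Y.M → ℝ} (ha : ∀ k, Sm e.Y.I (a k)) (hu : ∀ k, Sm e.Y.I (u k))
    (pa : ∀ k y, ∑ j, e.D.F.P k j y • a j y = a k y)
    (pu : ∀ k y, ∑ j, e.D.F.P k j y • u j y = u k y) :
    Nul e.D.F.μ fun y => ∑ k, sd e u k y * a k y - ∑ k, sd e a k y * u k y :=
  ((nul_dvg e.D.F fun k y => SA.sum _ fun i _ => SA.sum _ fun j _ =>
    SA.mul (sm_G he k i j y) (SA.mul (hu i y) (ha j y))).mul 2).of fun y =>
      green (lc_gam _) (frm _) (dv_gam he.vol y) (p3 he y) (hu · y) (ha · y) (pu · y) (pa · y)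

/-- the Dirac operator is symmetric -/
theorem nul_D0 {φ ψ : e.Y.M → Eu ν} (hφ : Sm e.Y.I φ) (hψ : Sm e.Y.I ψ)
    (pφ : ∀ y, e.m.p y (φ y) = φ y) (pψ : ∀ y, e.m.p y (ψ y) = ψ y) :
    Nul e.D.F.μ fun y => ⟪D0 e φ y, ψ y⟫_ℝ - ⟪φ y, D0 e ψ y⟫_ℝ :=
  ((nul_dvg e.D.F fun k y => SA.inner (SA.app ((sy he).sm k y) (hφ y)) (hψ y)).mul (-1)).of
    fun y => by
      have := inner_dop (sy he) (lc_gam _) (riem_of_vol he.vol)
        (fun k => he.cyl.sk (some k) (y, 0)) (hφ y) (hψ y)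
      simp only [D0, inner_neg_left, inner_neg_right, inner_add_left, inner_add_right, this,
        Z_sym he (pφ y) (pψ y)]
      simp only [dop, inner_sum, τ_skw he _ y (φ y), sum_neg_distrib]
      ring

/-- the Bianchi identity -/
theorem nul_f0 {χ : e.Y.M → ℝ} (hχ : Sm e.Y.I χ) :
    Nul e.D.F.μ fun y => ∑ k, st e (f0 e) k y * e.D.F.D k χ y := by
  refine (nul_dvg e.D.F fun k y => SA.mul (hχ y) (sm_st0 he k y)).of fun y => ?_
  have C := conA he
  have sj : Sm e.Y.I fun y => e.m.J * e.m.p y := sm_slice_fst (Pb50.sa_jp he.cyl) 0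
  have e0 : ∀ (T : En ν) y, ⟪hsL (e.m.J * e.m.p y), hsL T⟫_ℝ = -trE (e.m.J * e.m.p y * T) :=
    fun T y => inner_hsL_skw (jp_skw he.cyl (y, 0)) T
  have e1 : ∀ k, dv e.Y.I (e.D.F.e k) (fun y => e.m.J * e.m.p y) y =
      e.m.J * e.m.p y * e.A k y - e.A k y * (e.m.J * e.m.p y) := fun k =>
    (congrFun (D_some_fst e.D.F.toPre sj k) (y, 0)).symm.trans (Pb50.D_jp he.cyl (some k) (y, 0))
  have e2 : ∀ k i j, dv e.Y.I (e.D.F.e k) (f0 e i j) y = 1 / 8 * ⟪hsL (e.m.J * e.m.p y),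
      hsL (nabE e.Y.I e.D.F.e e.A k (curv e.Y.I e.D.F.e e.D.F.c e.A i j) y)⟫_ℝ := fun k i j => by
    have s := sm_curv (F := e.D.F) C.sm i j y
    have := dv_clm (e := e.D.F.e k) ((-1 / 8 : ℝ) • trE) (SA.mul (sj y) s).md
    rw [dv_mul (sj y) s, e1] at this
    rw [show f0 e i j = _ from _root_.funext fun y => by rw [f0, e0], e0]
    simp only [smul_apply, smul_eq_mul, neg_div, neg_mul, ← mul_neg] at this
    rw [this]
    simp only [nabE, mul_add, mul_sub, sub_mul, map_add, map_sub, mul_assoc,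
      trE_comm (e.A k y)]
    ring
  have h : dvg e.Y.I e.D.F.e e.D.F.dv (st e (f0 e)) y = 0 := div_closed (lc_gam _) (frm _) (dv_gam he.vol y) (p3 he y) (sm_f0 he · · y)
    (fun i j => by rw [f0, f0, (lc_gam _).curv_anti C, map_neg, inner_neg_right, mul_neg])
    (fun i j => by
      simp only [f0, ← (lc_gam _).curv_p1 (frm _) (sep _) C i j y, map_sum, map_smul, inner_sum,
        real_inner_smul_right, mul_sum, smul_eq_mul, mul_left_comm])
    fun a b m => by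
      have := congrArg (fun T => 1 / 8 * ⟪hsL (e.m.J * e.m.p y), hsL T⟫_ℝ)
        ((lc_gam e.D.F).bianchi2 (frm _) (sep _) C a b m y)
      simpa only [e2, f0, map_add, map_sub, map_sum, map_smul, inner_add_right, inner_sub_right,
        inner_sum, real_inner_smul_right, mul_add, mul_sub, mul_sum, smul_eq_mul, mul_left_comm,
        map_zero, inner_zero_right, mul_zero] using this
  have h2 := congrArg (χ y * ·) h
  simp only [dvg, fun k => dv_mul (e := e.D.F.e k) (hχ y) (sm_st0 he k y), mul_sum, mul_add,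
    sum_add_distrib, mul_zero] at h2 ⊢
  simp only [mul_left_comm _ (χ y), Pre.D_def, mul_comm (st e _ _ y)]
  exact (add_zero _).symm.trans ((congrArg _ h2.symm).trans (add_assoc _ _ _).symm)

/-- **the gradient is orthogonal to the gauge orbits** -/
theorem nul_gau {v : e.YC} (h : Ay v) {χ : e.Y.M → ℝ} (hχ : Sm e.Y.I χ) :
    Nul e.D.F.μ (ipd (gr v) (gau v χ)) := by
  have sD := fun k => e.D.F.sm_D hχ k
  have p0 := fun y => p_of he.cyl (h.pΦ y)
  have sJ : Sm e.Y.I fun y => e.m.J (v.Φ y) := fun y => SA.clm _ (h.sΦ y)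
  have n2 : Nul e.D.F.μ _ := ⟨ii _ fun y => SA.sum _ fun k _ => SA.mul (sm_om he _ y) (sD k y),
    he.cl χ hχ⟩
  have n3 : Nul e.D.F.μ _ := ⟨ii _ fun y => SA.sum _ fun k _ => SA.mul (sm_ζ he _ y) (sD k y),
    he.clζ χ hχ⟩
  have n4 := nul_sd he h.sa sD h.pa fun k y => (frm _).projD k χ y
  have n5 := nul_D0 he (ψ := fun y => χ y • e.m.J (v.Φ y)) h.sΦ (hχ.smul sJ) p0 fun y => by
    rw [map_smul, pJ he (p0 y)]
  refine (((((nul_f0 he hχ).add (n2.mul (-4))).add (n3.mul (4 * deriv e.f (hol v)))).add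
    (n4.mul (-1))).add (n5.mul (-e.w / 2))).of fun y => ?_
  have e1 : ∀ k, sd e (fun k => e.D.F.D k χ) k y = 0 := fun k =>
    sum_eq_zero fun i _ => sum_eq_zero fun j _ =>
      mul_eq_zero_of_right _ (sub_eq_zero.2 ((frm _).br i j χ y (hχ y)))
  have e2 : D0 e (fun y => χ y • e.m.J (v.Φ y)) y = χ y • e.m.J (D0 e v.Φ y)
      - ∑ k, e.D.F.D k χ y • e.m.J (τ e k y (v.Φ y)) := by
    have n : ∀ k, nab e.Y.I e.D.F.e e.A k (fun y => e.m.J (v.Φ y)) y =
        e.m.J (nab e.Y.I e.D.F.e e.A k v.Φ y) := fun k => nab_map _ k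
      (congrArg (fun T : En ν => T (v.Φ y)) (he.cyl.AJ (some k) (y, 0))).symm (h.sΦ y)
    simp only [D0, dop, fun k => nab_smul (e := e.D.F.e) (A := e.A) k (hχ y) (sJ y), n, map_add,
      map_smul, map_neg, map_sum, ← Jτ he, ← JZ he, sum_add_distrib, smul_neg, smul_add, smul_sum,
      Pre.D_def]
    abel
  have e3 : ∀ k, ⟪e.m.J (τ e k y (v.Φ y)), e.m.J (v.Φ y)⟫_ℝ = 0 := fun k => by
    rw [Jτ he, (τ_skw he k y).self]
  have e4 : ⟪v.Φ y, e.m.J (v.Φ y)⟫_ℝ = 0 := by rw [real_inner_comm, Skew.self (J_skw he)]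
  have e5 : ⟪v.Φ y, e.m.J (D0 e v.Φ y)⟫_ℝ = -⟪D0 e v.Φ y, e.m.J (v.Φ y)⟫_ℝ := by
    rw [real_inner_comm, J_skw he]
  simp only [ipd, gau, gr_a he h, gr_Φ he h, Ga, GP, g0, e1, e2, e3, e4, e5, qq, inner_neg_right,
    inner_sub_left, inner_sub_right, sum_inner, inner_sum, real_inner_smul_left,
    real_inner_smul_right, real_inner_comm (e.m.J (τ e _ y _)) (v.Φ y), mul_zero, zero_mul,
    sum_const_zero, add_mul, sub_mul, mul_sub, sum_add_distrib, sum_sub_distrib, mul_assoc,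
    div_mul_eq_mul_div, mul_div_assoc', ← sum_div, ← mul_sum, mul_comm (e.D.F.D _ χ y)]
  ring

theorem der_Bi (x : ℝ) : HasDerivAt (Bi e) (e.b x) x :=
  (he.sb.continuous.integral_hasStrictDerivAt 0 x).hasDerivAt

theorem cd_Bi : ContDiff ℝ ∞ (Bi e) :=
  contDiff_infty_iff_deriv.2 ⟨fun t => (der_Bi he t).differentiableAt,
    _root_.funext (fun t => (der_Bi he t).deriv) ▸ he.sb⟩

namespace FY
variable {v u : ℝ → e.YC} (h : FY v u)
include h

theorem hol : Fam e.Y.I (fun s y => 4 * ∑ k, e.ζ y (none, some k) * (v s).a k y)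
    fun s y => 4 * ∑ k, e.ζ y (none, some k) * (u s).a k y :=
  (Fam.sum fun k => (h.a k).smul (sm_ζ he _)).cmul 4

omit he in
theorem nm : Fam e.Y.I (fun s y => ‖(v s).Φ y‖ ^ 2) fun s y => 2 * ⟪(v s).Φ y, (u s).Φ y⟫_ℝ := by
  simpa only [real_inner_self_eq_norm_sq, two_mul, fun s y => real_inner_comm ((v s).Φ y) ((u s).Φ y)]
    using h.Φ.inner h.Φ

theorem lt : ContDiff ℝ ∞ (fun s => Lt (v s)) ∧
    ∀ s, HasDerivAt (fun s => Lt (v s)) (ip (gr (v s)) (u s)) s := by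
  have d := ((((Fam.sum fun k => (h.a k).smul (sm_g0 he k)).cmul 4).add
    ((Fam.sum fun k => (fam_sd he h.a k).mul (h.a k)).cmul (1 / 2))).add
    (((fam_D0 he h.Φ).inner h.Φ).cmul (e.w / 2))).sub
    ((Fam.sum fun k => (h.a k).mul (fam_qq he h.Φ h.Φ k)).cmul (e.w / 2))
  let F := e.D.F.toPre
  refine ⟨((d.sm.int F).add (he.sf.comp ((h.hol he).sm.int F))).sub
    (contDiff_const.mul ((cd_Bi he).comp (h.nm.sm.int F))), fun s => ?_⟩
  have k := ((d.int F s).add ((he.sf.differentiable (by simp) _).hasDerivAt.comp s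
    ((h.hol he).int F s))).sub (((der_Bi he _).comp s (h.nm.int F s)).const_mul (e.w / 2))
  refine HasDerivAt.congr_deriv k ?_
  have i1 := ii F ((d.sm' F).sl s)
  have i2 := (ii F (((h.hol he).sm' F).sl s)).const_mul (deriv e.f (En3.hol (v s)))
  have i3 := ((ii F ((h.nm.sm' F).sl s)).const_mul (e.b (En3.nm (v s)))).const_mul (e.w / 2)
  have A := h.ay s
  have A' := h.ay' s
  have n1 := nul_sd he A.sa A'.sa A.pa A'.pa
  have n2 := nul_D0 he A'.sΦ A.sΦ (fun y => p_of he.cyl (A'.pΦ y)) fun y => p_of he.cyl (A.pΦ y)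
  rw [← integral_const_mul, ← integral_const_mul, ← integral_const_mul]
  refine ((congrArg (· - _) (integral_add i1 i2)).symm.trans (integral_sub (i1.add i2) i3).symm).trans
    (((n1.mul (-1 / 2)).add (n2.mul (-e.w / 2))).eq ((i1.add i2).sub i3) fun y => ?_).symm
  simp only [gr_a he A, gr_Φ he A, Ga, GP, Pi.add_apply, Pi.sub_apply, inner_sub_left, sum_inner,
    real_inner_smul_left, qq_comm he _ (u s).Φ, real_inner_comm (D0 e _ y) ((u s).Φ y), smul_eq_mul,
    add_mul, sub_mul, mul_add, sum_add_distrib, sum_sub_distrib, mul_assoc, div_mul_eq_mul_div,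
    ← sum_div, ← mul_sum, mul_comm ((u s).a _ y) (qq _ _ _ _ _)]
  simp only [qq]
  ring

end FY

/-- the functional in closed form -/
theorem L_eq {v : e.YC} (h : Ay v) : L v = Lt v - Lt (⟨0, 0⟩ : e.YC) := by
  obtain ⟨h1, h2⟩ := (fy_sc h).lt he
  have := intervalIntegral.integral_eq_sub_of_hasDerivAt (a := 0) (b := 1) (fun r _ => h2 r)
    (Continuous.intervalIntegrable (_root_.funext (fun r => (h2 r).deriv) ▸
      h1.continuous_deriv (by simp)) _ _)
  rw [show v.smul 1 = v by ext <;> simp [En3.YC.smul],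
    show v.smul 0 = ⟨0, 0⟩ by ext <;> simp [En3.YC.smul]] at this
  exact this

namespace FY
variable {v u : ℝ → e.YC} (h : FY v u)
include h

theorem cd : ContDiff ℝ ∞ fun s => L (v s) := by
  simpa only [fun s => L_eq he (h.ay s)] using (h.lt he).1.sub contDiff_const

/-- **the first variation** -/
theorem dL (s : ℝ) : HasDerivAt (fun s => L (v s)) (ip (gr (v s)) (u s)) s := by
  simpa only [fun s => L_eq he (h.ay s)] using ((h.lt he).2 s).sub_const _

theorem sa (k : κ) : SF e.Y.I fun s => (gr (v s)).a k := by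
  simp only [SF, fun s => gr_a he (h.ay s)]
  exact (((sm_fst (contMDiff_const.mul (sm_g0 he k))).add ((fam_sd he h.a k).sm.div_const _)).sub
    ((fam_qq he h.Φ h.Φ k).cmul _).sm).add ((sm_snd (contDiff_const.mul
      ((he.sf.iterate_deriv 1).comp ((h.hol he).sm.int e.D.F.toPre)))).mul (sm_fst (sm_ζ he _)))

theorem sΦ : SF e.Y.I fun s => (gr (v s)).Φ := by
  simp only [SF, fun s => gr_Φ he (h.ay s)]
  exact ((fam_D0 he h.Φ).sm.sub fun x => SA.sum _ fun k _ =>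
    SA.smul ((h.a k).sm x) ((fam_Jτ he h.Φ k).sm x)).sub
    ((sm_snd (he.sb.comp (h.nm.sm.int e.D.F.toPre))).smul h.Φ.sm)

theorem gn : ContDiff ℝ ∞ fun s => gn (v s) :=
  SF.int (f := fun s => ipd (gr (v s)) (gr (v s))) (fun x => (SA.mul contMDiffAt_const
    (SA.sum _ fun k _ => SA.mul (h.sa he k x) (h.sa he k x))).add
      (SA.mul contMDiffAt_const (SA.inner (h.sΦ he x) (h.sΦ he x)))) e.D.F.toPre

end FY

omit he in
theorem int_ipd {v u : e.YC} (h1 : ∀ k, Sm e.Y.I (v.a k)) (h2 : Sm e.Y.I v.Φ)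
    (h3 : ∀ k, Sm e.Y.I (u.a k)) (h4 : Sm e.Y.I u.Φ) : Integrable (ipd v u) e.D.F.μ :=
  ii _ fun y => (SA.mul contMDiffAt_const (SA.sum _ fun k _ => SA.mul (h1 k y) (h3 k y))).add
    (SA.mul contMDiffAt_const (SA.inner (h2 y) (h4 y)))

theorem dl0 (hc : e.cyl.Adm c) (s : ℝ)
    (hD : ∀ y, e.cyl.eD c (y, s) = e.b (nm (sl c s)) • e.m.ρ none y (c.Φ (y, s))) :
    HasDerivAt (fun s => L (sl c s)) (-gn (sl c s) + ip (gr (sl c s)) ⟨fun k y =>
      2 * (e.cyl.eC c (y, s) + deriv e.f (hol (sl c s)) • e.ζ y) (none, some k), 0⟩) s := by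
  have h := fy_sl hc
  have A := h.ay s
  have g1 := fun k => (h.sa he k).sl s
  have g2 := (h.sΦ he).sl s
  have i1 := int_ipd g1 g2 g1 g2
  have i2 := int_ipd g1 g2 (h.ay' s).sa (h.ay' s).sΦ
  refine (h.dL he s).congr_deriv (eq_neg_add_iff_add_eq.2 ((integral_add i1 i2).symm.trans
    (((nul_gau he A (sm_slice_fst (hc.sa none) s)).mul (-1)).eq (i1.add i2) fun y => ?_).symm))
  have e1 := eD_split he hc y s
  rw [hD, map_smul, ρρ he, show e.m.p y _ = _ from p_of he.cyl (hc.pΦ (y, s)), smul_neg,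
    neg_neg] at e1
  have e2 : (sl (dt c) s).Φ y = (gau (sl c s) fun z => c.a none (z, s)).Φ y - (gr (sl c s)).Φ y := by
    rw [gr_Φ he A]
    exact (eq_sub_of_add_eq (eq_sub_of_add_eq e1.symm)).trans (by simp only [gau, sl]; abel)
  have e3 : ∀ k, 2 * (e.cyl.eC c (y, s) + deriv e.f (hol (sl c s)) • e.ζ y) (none, some k) =
      (sl (dt c) s).a k y + (gr (sl c s)).a k y - (gau (sl c s) fun z => c.a none (z, s)).a k y :=
    fun k => by
      rw [gr_a he A, PiLp.add_apply, mul_add, eC_split he hc]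
      simp only [gau, sl, PiLp.smul_apply, smul_eq_mul]
      ring
  simp only [ipd, e2, e3, Pi.add_apply, Pi.zero_apply, inner_zero_right, inner_sub_right, mul_add,
    mul_sub, sum_add_distrib, sum_sub_distrib]
  ring

omit he in
/-- **SW-DL** -/
theorem dl : Sw.DlStmt κ lam ν := fun e he c I hI hc => by
  have key : ∀ s ∈ I, ∃ c' : e.ZC, e.cyl.Adm c' ∧ (∀ᶠ t in 𝓝 s, sl c t = sl c' t) ∧
      ∀ y, (∀ i, c.a i =ᶠ[𝓝 (y, s)] c'.a i) ∧ c.Φ =ᶠ[𝓝 (y, s)] c'.Φ := fun s hs => by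
    obtain ⟨r, hr, h⟩ := Metric.nhds_basis_closedBall.mem_iff.1 (hI.mem_nhds hs)
    let φ : ContDiffBump s := ⟨r / 2, r, half_pos hr, half_lt_self hr⟩
    have h1 : ∀ᶠ t in 𝓝 s, φ t = 1 := φ.eventuallyEq_one
    have h2 : ∀ y : e.Y.M, ∀ᶠ x in 𝓝 (y, s), φ x.2 = 1 := fun y =>
      (continuous_snd.tendsto (y, s)).eventually h1
    have hO : IsOpen ((Set.univ : Set e.Y.M) ×ˢ I) := isOpen_univ.prod hI
    have k : ∀ x : e.Y.M × ℝ, (∀ᶠ z in 𝓝 x, φ z.2 = 0) ∨ x ∈ Set.univ ×ˢ I := fun x =>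
      (em (x.2 ∈ tsupport φ)).symm.imp
        (fun h => (continuous_snd.tendsto x).eventually (notMem_tsupport_iff_eventuallyEq.1 h))
        fun h' => ⟨trivial, h (φ.tsupport_eq ▸ h')⟩
    have sm : ∀ {N : Type} [NormedAddCommGroup N] [NormedSpace ℝ N] {u : e.Y.M × ℝ → N},
        ContMDiffOn (IC e.Y.I) 𝓘(ℝ, N) ∞ u (Set.univ ×ˢ I) → Sm (IC e.Y.I) fun x => φ x.2 • u x :=
      fun hu x => (k x).elim
        (fun h => (contMDiffAt_const (c := 0)).congr_of_eventuallyEq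
          (h.mono fun z hz => by simp only [hz, zero_smul]))
        fun h => (sm_snd φ.contDiff x).smul (hu.contMDiffAt (hO.mem_nhds h))
    refine ⟨⟨fun i x => φ x.2 • c.a i x, fun x => φ x.2 • c.Φ x⟩, ⟨fun i => sm (hc.sa i), sm hc.sΦ,
      fun i x => ?_, fun x => ?_⟩, h1.mono fun t ht => by simp only [sl, ht, one_smul],
      fun y => ⟨fun i => (h2 y).mono fun x hx => by simp only [hx, one_smul],
        (h2 y).mono fun x hx => by simp only [hx, one_smul]⟩⟩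
    · rcases k x with h | h
      · simp [h.self_of_nhds]
      · simp only [smul_eq_mul, mul_left_comm _ (φ x.2), ← mul_sum, hc.pa i x h]
    · rcases k x with h | h
      · simp [h.self_of_nhds]
      · simp only [map_smul, hc.pΦ x h]
  refine ⟨fun s hs => ?_, fun s hs => ?_, fun s hs hD => ?_⟩ <;>
    obtain ⟨c', h1, h2, h3⟩ := key s hs
  · exact (((fy_sl h1).cd he).contDiffAt.congr_of_eventuallyEq
      (h2.mono fun t ht => congrArg L ht)).contDiffWithinAt
  · exact (((fy_sl h1).gn he).contDiffAt.congr_of_eventuallyEq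
      (h2.mono fun t ht => congrArg gn ht)).contDiffWithinAt
  · have h4 := fun y => e_congr (b := e.cyl) (h3 y).1 (h3 y).2
    simp only [h2.self_of_nhds, fun y => (h4 y).1, fun y => (h4 y).2,
      fun y => (h3 y).2.self_of_nhds] at hD ⊢
    exact (dl0 he h1 s hD).congr_of_eventuallyEq (h2.mono fun t ht => congrArg L ht)

end Crest.Agent.X212.Dl42
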