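import Crest.Agent.X212.Dl42.Main
import Crest.Agent.X212.Dec47.Defs

/-!
# Row 212, SW-DX (helper42): first variation, orthogonality, the flow in temporal gauge
-/

set_option autoImplicit false
set_option linter.unusedSectionVars false
noncomputable section
open scoped Manifold ContDiff Topology InnerProductSpace
open Finset Filter MeasureTheory

namespace Crest.Agent.X212.Dl42
open An Sob92 Wz78 Cyf70 Dl23 Op78
open Sw (Bg F2 En3)
open Sw.En3 (sl fz gr ip nm hol gn L)

variable {κ lam ν : Type} [Fintype κ] [Fintype lam] [Fintype ν] [DecidableEq ν]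
  {e : En3 κ lam ν} {c : e.ZC}

/-- the flow equation in an arbitrary gauge, one-form part -/
theorem flow_a (he : e.OK) (hc : e.cyl.Adm c) (s : ℝ) (k : κ) (y : e.Y.M) :
    (dt c).a (some k) (y, s) = -(gr (sl c s)).a k y + e.D.F.D k (fun z => c.a none (z, s)) y +
      2 * (e.cyl.eC c (y, s) + deriv e.f (hol (sl c s)) • e.ζ y) (none, some k) := by
  rw [gr_a he (ay_sl hc s), PiLp.add_apply, mul_add, eC_split he hc]
  simp only [PiLp.smul_apply, smul_eq_mul]
  ring

/-- the flow equation in an arbitrary gauge, spinor part -/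
theorem flow_Φ (he : e.OK) (hc : e.cyl.Adm c) (s : ℝ) (y : e.Y.M)
    (hD : e.cyl.eD c (y, s) = e.b (nm (sl c s)) • e.m.ρ none y (c.Φ (y, s))) :
    (dt c).Φ (y, s) = -(gr (sl c s)).Φ y - c.a none (y, s) • e.m.J (c.Φ (y, s)) := by
  have e1 := eD_split he hc y s
  rw [hD, map_smul, ρρ he, show e.m.p y _ = _ from p_of he.cyl (hc.pΦ (y, s)), smul_neg,
    neg_neg] at e1
  rw [gr_Φ he (ay_sl hc s)]
  exact (eq_sub_of_add_eq (eq_sub_of_add_eq e1.symm)).trans (by simp only [sl]; abel)

/-- **SW-DX** -/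
theorem dx : Dec47.DxStmt κ lam ν where
  dL _ he _ hc s := (fy_sl hc).dL he s
  orth e he v hv χ hχ := ((nul_gau he (ay_of hv) hχ).mul (-1)).zero ▸
    integral_congr_ae (.of_forall fun y => by
      simp only [ipd, gau, Dec47.gd, inner_neg_right, mul_neg, sum_neg_distrib]
      change _ = -1 * (2 * ∑ k, (gr v).a k y * _ + -(e.w * ⟪(gr v).Φ y, χ y • e.m.J (v.Φ y)⟫_ℝ))
      ring)
  flow e he c hc s h0 h := ⟨fun k y => by
    have h1 := flow_a he hc s k y
    rw [(h y).2, show (fun z => c.a none (z, s)) = 0 from _root_.funext h0,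
      show e.D.F.D k (0 : e.Y.M → ℝ) = 0 from dv_const 0] at h1
    exact h1.trans (by simp), fun y => by
    have h1 := flow_Φ he hc s y (h y).1
    rwa [h0, zero_smul, sub_zero] at h1⟩

end Crest.Agent.X212.Dl42
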