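import Crest.Agent.X212.Dl23.Ten

/-!
# Row 212, SW-DL (helper42): smooth families of functions, null integrals
-/

set_option autoImplicit false
set_option linter.unusedSectionVars false
noncomputable section
open scoped Manifold ContDiff Topology InnerProductSpace
open Finset Filter MeasureTheory

namespace Crest.Agent.X212.Dl42
open An Sob92 Wz78 Cyf70 Dl23

section nul
variable {Y : Type} [MeasurableSpace Y] {μ : Measure Y} {f g g' : Y → ℝ}

variable (μ f) in
/-- integrable with integral zero -/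
structure Nul : Prop where
  int : Integrable f μ
  zero : ∫ y, f y ∂μ = 0

theorem Nul.add (h : Nul μ f) (k : Nul μ g) : Nul μ fun y => f y + g y :=
  ⟨h.int.add k.int, by rw [integral_add h.int k.int, h.zero, k.zero, add_zero]⟩

theorem Nul.mul (h : Nul μ f) (r : ℝ) : Nul μ fun y => r * f y :=
  ⟨h.int.const_mul r, by rw [integral_const_mul, h.zero, mul_zero]⟩

theorem Nul.of (h : Nul μ f) (e : ∀ y, g y = f y) : Nul μ g := _root_.funext e ▸ h

theorem Nul.eq (h : Nul μ f) (hg : Integrable g μ) (e : ∀ y, g' y = g y + f y) :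
    ∫ y, g' y ∂μ = ∫ y, g y ∂μ := by
  simp only [e]
  rw [integral_add hg h.int, h.zero, add_zero]

end nul

variable {E : Type} [NormedAddCommGroup E] [NormedSpace ℝ E] [FiniteDimensional ℝ E]
  [MeasurableSpace E] [BorelSpace E]
  {HM : Type} [TopologicalSpace HM] {I : ModelWithCorners ℝ E HM} [I.Boundaryless]
  {Y : Type} [TopologicalSpace Y] [ChartedSpace HM Y] [IsManifold I ∞ Y] [T2Space Y]
  [MeasurableSpace Y] [BorelSpace Y] [CompactSpace Y] {ι : Type} [Fintype ι]
  {N N' N'' : Type} [NormedAddCommGroup N] [NormedSpace ℝ N] [NormedAddCommGroup N']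
  [NormedSpace ℝ N'] [NormedAddCommGroup N''] [NormedSpace ℝ N'']

theorem ii (F : Pre I Y ι) {f : Y → ℝ} (h : Sm I f) : Integrable f F.μ :=
  h.continuous.integrable_of_hasCompactSupport (.of_compactSpace _)

theorem nul_dvg (F : Fr I Y ι) {f : ι → Y → ℝ} (h : ∀ a, Sm I (f a)) :
    Nul F.μ (dvg I F.e F.dv f) :=
  ⟨integ_dvg h fun _ => .of_compactSpace _, integral_dvg h fun _ => .of_compactSpace _⟩

variable (I) in
/-- jointly smooth -/
abbrev SF (f : ℝ → Y → N) : Prop := Sm (IC I) fun x : Y × ℝ => f x.2 x.1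

variable (I) in
/-- a smooth family `f` with the derivative `f'` -/
structure Fam (f f' : ℝ → Y → N) : Prop where
  sm : SF I f
  dr : ∀ s y, HasDerivAt (fun s => f s y) (f' s y) s

theorem SF.sl {f : ℝ → Y → N} (h : SF I f) (s : ℝ) : Sm I (f s) := sm_slice_fst h s

theorem fam_cyl (F : Pre I Y ι) {u : Y × ℝ → N} (h : Sm (IC I) u) :
    Fam I (fun s y => u (y, s)) fun s y => (cylP F).D none u (y, s) :=
  ⟨h, fun s y => hasDerivAt_slice F h y s⟩

theorem fam_sc {u : Y → N} (h : Sm I u) : Fam I (fun s y => s • u y) fun _ => u :=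
  ⟨contMDiff_snd.smul (sm_fst h), fun s y => by simpa using (hasDerivAt_id s).smul_const (u y)⟩

namespace Fam
variable {f f' g g' : ℝ → Y → N} (h : Fam I f f')
include h

theorem eq (F : Pre I Y ι) (s : ℝ) (y : Y) :
    f' s y = (cylP F).D none (fun x => f x.2 x.1) (y, s) :=
  (h.dr s y).unique (hasDerivAt_slice F h.sm y s)

theorem sm' (F : Pre I Y ι) : SF I f' := by
  simpa only [SF, h.eq F] using (cylP F).sm_D h.sm none

theorem add (k : Fam I g g') : Fam I (fun s y => f s y + g s y) fun s y => f' s y + g' s y :=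
  ⟨h.sm.add k.sm, fun s y => (h.dr s y).add (k.dr s y)⟩

theorem sub (k : Fam I g g') : Fam I (fun s y => f s y - g s y) fun s y => f' s y - g' s y :=
  ⟨h.sm.sub k.sm, fun s y => (h.dr s y).sub (k.dr s y)⟩

theorem neg : Fam I (fun s y => -f s y) fun s y => -f' s y :=
  ⟨h.sm.neg, fun s y => (h.dr s y).neg⟩

omit h in
theorem sum {α : Type} [Fintype α] {f f' : α → ℝ → Y → N} (h : ∀ a, Fam I (f a) (f' a)) :
    Fam I (fun s y => ∑ a, f a s y) fun s y => ∑ a, f' a s y :=
  ⟨fun x => SA.sum _ fun a _ => (h a).sm x, fun s y => HasDerivAt.fun_sum fun a _ => (h a).dr s y⟩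

theorem app {T : Y → N →L[ℝ] N'} (hT : Sm I T) :
    Fam I (fun s y => T y (f s y)) fun s y => T y (f' s y) :=
  ⟨(sm_fst hT).clm_apply h.sm, fun s y => (T y).hasFDerivAt.comp_hasDerivAt s (h.dr s y)⟩

theorem smul {c : Y → ℝ} (hc : Sm I c) :
    Fam I (fun s y => c y • f s y) fun s y => c y • f' s y :=
  ⟨(sm_fst hc).smul h.sm, fun s y => (h.dr s y).const_smul (c y)⟩

theorem bil (B : N →L[ℝ] N' →L[ℝ] N'') {g g' : ℝ → Y → N'} (k : Fam I g g') :
    Fam I (fun s y => B (f s y) (g s y)) fun s y => B (f' s y) (g s y) + B (f s y) (g' s y) :=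
  ⟨fun x => (SA.clm B (h.sm x)).app (k.sm x), fun s y =>
    (B.hasFDerivAt.comp_hasDerivAt s (h.dr s y)).clm_apply (k.dr s y)⟩

theorem D (F : Pre I Y ι) (a : ι) : Fam I (fun s => F.D a (f s)) fun s => F.D a (f' s) := by
  have h1 := fam_cyl F ((cylP F).sm_D h.sm (some a))
  simp only [D_comm F h.sm, D_some F h.sm, D_some F ((cylP F).sm_D h.sm none), ← h.eq F] at h1
  exact h1

theorem fix {T : N →L[ℝ] N} {y : Y} (e : ∀ s, T (f s y) = f s y) (s : ℝ) : T (f' s y) = f' s y :=
  (T.hasFDerivAt.comp_hasDerivAt s (h.dr s y)).unique (by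
    simpa only [Function.comp_def, e] using h.dr s y)

end Fam

theorem Fam.mul {f f' g g' : ℝ → Y → ℝ} (h : Fam I f f') (k : Fam I g g') :
    Fam I (fun s y => f s y * g s y) fun s y => f' s y * g s y + f s y * g' s y :=
  h.bil (ContinuousLinearMap.mul ℝ ℝ) k

theorem Fam.cmul {f f' : ℝ → Y → ℝ} (h : Fam I f f') (r : ℝ) :
    Fam I (fun s y => r * f s y) fun s y => r * f' s y := h.smul (c := fun _ => r) contMDiff_const

theorem Fam.inner {V : Type} [NormedAddCommGroup V] [InnerProductSpace ℝ V] {f f' g g' : ℝ → Y → V}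
    (h : Fam I f f') (k : Fam I g g') : Fam I (fun s y => ⟪f s y, g s y⟫_ℝ)
      fun s y => ⟪f' s y, g s y⟫_ℝ + ⟪f s y, g' s y⟫_ℝ := h.bil (innerSL ℝ) k

theorem Fam.int {f f' : ℝ → Y → ℝ} (h : Fam I f f') (F : Pre I Y ι) (s : ℝ) :
    HasDerivAt (fun s => ∫ y, f s y ∂F.μ) (∫ y, f' s y ∂F.μ) s :=
  hasDerivAt_int' F h.sm (h.dr s)

theorem SF.int {f : ℝ → Y → ℝ} (h : SF I f) (F : Pre I Y ι) :
    ContDiff ℝ ∞ fun s => ∫ y, f s y ∂F.μ := contDiff_int F h

end Crest.Agent.X212.Dl42
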